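import Vale.Agent.P080C1.Props
import Vale.Agent.P080C1.Transform
import Vale.Agent.P084.Fin.NullLag

/-!
Boxes of natural proportions, and elementary facts about horizontal and vertical parts of vectors.
-/

noncomputable section

open MeasureTheory Filter Topology Set
open scoped RealInnerProductSpace NNReal

namespace Vale.Agent.P080C1.Improve

/-- The length of the horizontal part of a vector. -/
def hor (v : E3) : ℝ := ‖v - v 2 • ee 2‖

/-- The open box of height `2 r` and width `2 √ε r`. -/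
def box (ε r : ℝ) : Set E3 := {y | |y 2| < r ∧ hor y < √ε * r}

theorem inner_ee_two (v : E3) : ⟪ee 2, v⟫ = v 2 := by
  simp [ee, EuclideanSpace.inner_single_left]

theorem ee_two_two : (ee 2 : E3) 2 = 1 := by simp [ee]

theorem norm_ee_two : ‖ee 2‖ = 1 := by simp [ee]

theorem hor_nonneg (v : E3) : 0 ≤ hor v := norm_nonneg _

theorem hor_sq (v : E3) : hor v ^ 2 = ‖v‖ ^ 2 - v 2 ^ 2 := by
  rw [hor, norm_sub_sq_real, real_inner_smul_right, real_inner_comm (ee 2) v, inner_ee_two,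
    norm_smul, norm_ee_two, mul_one, Real.norm_eq_abs, sq_abs]
  ring

theorem hor_sq' (v : E3) : hor v ^ 2 = v 0 ^ 2 + v 1 ^ 2 := by
  rw [hor_sq, EuclideanSpace.norm_sq_eq, Fin.sum_univ_three]
  simp [sq_abs]

theorem abs_zero_le_hor (v : E3) : |v 0| ≤ hor v :=
  abs_le_of_sq_le_sq (by rw [hor_sq']; nlinarith [sq_nonneg (v 1)]) (hor_nonneg v)

theorem abs_one_le_hor (v : E3) : |v 1| ≤ hor v :=
  abs_le_of_sq_le_sq (by rw [hor_sq']; nlinarith [sq_nonneg (v 0)]) (hor_nonneg v)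

theorem hor_le_norm (v : E3) : hor v ≤ ‖v‖ :=
  (pow_le_pow_iff_left₀ (hor_nonneg v) (norm_nonneg v) two_ne_zero).1
    (by rw [hor_sq]; nlinarith [sq_nonneg (v 2)])

theorem abs_two_le_norm (v : E3) : |v 2| ≤ ‖v‖ :=
  abs_le_of_sq_le_sq (by nlinarith [hor_sq v, sq_nonneg (hor v)]) (norm_nonneg v)

theorem norm_le_add (v : E3) : ‖v‖ ≤ |v 2| + hor v :=
  (pow_le_pow_iff_left₀ (norm_nonneg v) (by positivity [hor_nonneg v]) two_ne_zero).1
    (by nlinarith [hor_sq v, sq_abs (v 2), abs_nonneg (v 2), hor_nonneg v])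

theorem hor_add (v w : E3) : hor (v + w) ≤ hor v + hor w := by
  refine le_of_eq_of_le ?_ (norm_add_le _ _)
  rw [hor]
  congr 1
  simp only [PiLp.add_apply]
  module

theorem hor_smul (a : ℝ) (v : E3) : hor (a • v) = |a| * hor v := by
  rw [hor, hor, ← Real.norm_eq_abs, ← norm_smul]
  congr 1
  simp only [PiLp.smul_apply, smul_eq_mul]
  module

theorem hor_neg (v : E3) : hor (-v) = hor v := by
  rw [← neg_one_smul ℝ v, hor_smul]; simp

theorem hor_sub (v w : E3) : hor (v - w) ≤ hor v + hor w := by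
  rw [sub_eq_add_neg, ← hor_neg w]
  simpa using hor_add v (-w)

theorem hor_zero : hor (0 : E3) = 0 := by simp [hor]

theorem continuous_hor : Continuous hor := by unfold hor; fun_prop

theorem isOpen_box (ε r : ℝ) : IsOpen (box ε r) :=
  (isOpen_lt (f := fun y : E3 => |y 2|) (by fun_prop) continuous_const).inter
    (isOpen_lt continuous_hor continuous_const)

theorem convex_box (ε r : ℝ) : Convex ℝ (box ε r) := by
  intro v hv w hw a b ha hb hab
  have hcomb : ∀ {p q M : ℝ}, p < M → q < M → a * p + b * q < M := by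
    intro p q M hp hq
    rcases ha.eq_or_lt with h0 | h0
    · subst h0; rw [zero_add] at hab; subst hab; linarith
    · have h1 : a * p < a * M := mul_lt_mul_of_pos_left hp h0
      have h2 : b * q ≤ b * M := mul_le_mul_of_nonneg_left hq.le hb
      have h3 : a * M + b * M = M := by rw [← add_mul, hab, one_mul]
      linarith
  refine ⟨?_, ?_⟩
  · refine lt_of_le_of_lt ?_ (hcomb hv.1 hw.1)
    simp only [PiLp.add_apply, PiLp.smul_apply, smul_eq_mul]
    refine (abs_add_le _ _).trans ?_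
    rw [abs_mul, abs_mul, abs_of_nonneg ha, abs_of_nonneg hb]
  · refine lt_of_le_of_lt ?_ (hcomb hv.2 hw.2)
    refine (hor_add _ _).trans ?_
    rw [hor_smul, hor_smul, abs_of_nonneg ha, abs_of_nonneg hb]

theorem zero_mem_box {ε r : ℝ} (hε : 0 < ε) (hr : 0 < r) : (0 : E3) ∈ box ε r :=
  ⟨by simpa using hr, by rw [hor_zero]; positivity⟩

theorem box_subset {ε r r' : ℝ} (h : r ≤ r') : box ε r ⊆ box ε r' :=
  fun _ hy => ⟨hy.1.trans_le h, hy.2.trans_le (mul_le_mul_of_nonneg_left h (Real.sqrt_nonneg _))⟩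

theorem mem_cyl₀_iff {R ρ : ℝ} (hρ : 0 ≤ ρ) {y : E3} :
    y ∈ cyl₀ R ρ ↔ |y 2| ≤ R ∧ hor y ≤ ρ := by
  simp only [cyl₀, cyl, sub_zero, inner_ee_two, norm_ee_two, mul_one, one_pow, mem_ofPred_eq]
  rw [← hor_sq, pow_le_pow_iff_left₀ (hor_nonneg y) hρ two_ne_zero]

theorem box_subset_cyl₀ {ε r R ρ : ℝ} (hρ : 0 ≤ ρ) (h1 : r ≤ R) (h2 : √ε * r ≤ ρ) :
    box ε r ⊆ cyl₀ R ρ :=
  fun _ hy => (mem_cyl₀_iff hρ).2 ⟨hy.1.le.trans h1, hy.2.le.trans h2⟩

theorem convex_cyl₀ (R : ℝ) {ρ : ℝ} (hρ : 0 ≤ ρ) : Convex ℝ (cyl₀ R ρ) := by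
  intro v hv w hw a b ha hb hab
  rw [mem_cyl₀_iff hρ] at hv hw ⊢
  refine ⟨?_, ?_⟩
  · simp only [PiLp.add_apply, PiLp.smul_apply, smul_eq_mul]
    refine (abs_add_le _ _).trans ?_
    rw [abs_mul, abs_mul, abs_of_nonneg ha, abs_of_nonneg hb]
    calc a * |v 2| + b * |w 2| ≤ a * R + b * R :=
          add_le_add (mul_le_mul_of_nonneg_left hv.1 ha) (mul_le_mul_of_nonneg_left hw.1 hb)
      _ = R := by rw [← add_mul, hab, one_mul]
  · refine (hor_add _ _).trans ?_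
    rw [hor_smul, hor_smul, abs_of_nonneg ha, abs_of_nonneg hb]
    calc a * hor v + b * hor w ≤ a * ρ + b * ρ :=
          add_le_add (mul_le_mul_of_nonneg_left hv.2 ha) (mul_le_mul_of_nonneg_left hw.2 hb)
      _ = ρ := by rw [← add_mul, hab, one_mul]

theorem linear_apply_eq (p : E3 →L[ℝ] ℝ) (v : E3) :
    p v = v 0 * p (ee 0) + v 1 * p (ee 1) + v 2 * p (ee 2) := by
  conv_lhs => rw [← sum_smul_ee v]
  simp [Fin.sum_univ_three]

/-- The pinching of a vector `p` around the third unit vector. -/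
def Near (C ε : ℝ) (p : E3 →L[ℝ] ℝ) : Prop :=
  ∀ v : E3, p v ≤ v 2 + C * (ε * |v 2| + √ε * hor v)

theorem Near.abs_sub_le {C ε : ℝ} {p : E3 →L[ℝ] ℝ} (h : Near C ε p) (v : E3) :
    |p v - v 2| ≤ C * (ε * |v 2| + √ε * hor v) := by
  have h2 := h (-v)
  rw [map_neg, PiLp.neg_apply, abs_neg, hor_neg] at h2
  rw [abs_le]
  constructor <;> linarith [h v]

theorem Near.norm_ge {C ε : ℝ} {p : E3 →L[ℝ] ℝ} (h : Near C ε p) : 1 - C * ε ≤ ‖p‖ := by
  have h1 := h.abs_sub_le (ee 2)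
  have h2 : hor (ee 2) = 0 := by simp [hor, ee_two_two]
  rw [ee_two_two, h2, mul_zero, add_zero, abs_one, mul_one] at h1
  have h3 := p.le_opNorm (ee 2)
  rw [norm_ee_two, mul_one, Real.norm_eq_abs] at h3
  linarith [abs_le.1 h1, le_abs_self (p (ee 2))]

theorem Near.norm_le {C ε : ℝ} (hC : 0 ≤ C) (hε : 0 ≤ ε) {p : E3 →L[ℝ] ℝ} (h : Near C ε p) :
    ‖p‖ ≤ 1 + (C + C ^ 2) * ε := by
  refine p.opNorm_le_bound (by positivity) fun v => ?_
  set b : ℝ := (1 + C * ε) * |v 2| + C * √ε * hor v with hb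
  have h1 : |p v| ≤ b := by
    have h1 := h.abs_sub_le v
    have h2 := abs_add_le (p v - v 2) (v 2)
    rw [sub_add_cancel] at h2
    rw [hb]; linarith
  have hs : √ε ^ 2 = ε := Real.sq_sqrt hε
  have h2 : b ^ 2 ≤ ((1 + C * ε) ^ 2 + C ^ 2 * ε) * ‖v‖ ^ 2 := by
    have e : ‖v‖ ^ 2 = |v 2| ^ 2 + hor v ^ 2 := by rw [hor_sq, sq_abs]; ring
    have e2 : C ^ 2 * ε = (C * √ε) ^ 2 := by rw [mul_pow, hs]
    rw [e, e2, hb]
    nlinarith [sq_nonneg ((1 + C * ε) * hor v - C * √ε * |v 2|)]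
  have h3 : (1 + C * ε) ^ 2 + C ^ 2 * ε ≤ (1 + (C + C ^ 2) * ε) ^ 2 := by
    have : 0 ≤ C ^ 2 * ε * (2 * C * ε + C ^ 2 * ε + 1) := by positivity
    nlinarith
  have h4 : b ^ 2 ≤ ((1 + (C + C ^ 2) * ε) * ‖v‖) ^ 2 := by
    rw [mul_pow]
    exact h2.trans (mul_le_mul_of_nonneg_right h3 (sq_nonneg _))
  rw [Real.norm_eq_abs]
  exact h1.trans ((le_abs_self b).trans (abs_le_of_sq_le_sq h4 (by positivity)))

/-- Minus a viscosity solution is a viscosity solution. -/
theorem isInfHarmonicOn_neg {O : Set E3} {u : E3 → ℝ} (h : IsInfHarmonicOn O u) :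
    IsInfHarmonicOn O fun x => -u x := by
  refine ⟨h.1.neg, fun φ z hz hφ => ?_⟩
  have hL : P080.infLap (fun x => -φ x) z = -P080.infLap φ z := by
    have e1 : fderiv ℝ (fun x => -φ x) = fun x => -fderiv ℝ φ x := funext fun x => fderiv_fun_neg
    have e2 : gradient (fun x => -φ x) z = -gradient φ z := by
      simp [gradient, e1]
    rw [P080.infLap, P080.infLap, e2, e1, fderiv_fun_neg]
    simp
  constructor
  · intro hm
    have h2 : IsLocalMin (fun x => u x - -φ x) z := by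
      filter_upwards [hm] with x hx
      linarith
    linarith [(h.2 _ z hz hφ.neg).2 h2]
  · intro hm
    have h2 : IsLocalMax (fun x => u x - -φ x) z := by
      filter_upwards [hm] with x hx
      linarith
    linarith [(h.2 _ z hz hφ.neg).1 h2]

/-- The distance travelled by a shifted straight segment. -/
theorem norm_add_smul_sub_le {n w : E3} {l : ℝ} (hn : ‖n‖ = 1) (hl : 0 < l)
    (h : l / 2 ≤ l + ⟪n, w⟫) (c : ℝ) :
    ‖w + l • n‖ - l ≤ ⟪n, w⟫ + ‖w - c • n‖ ^ 2 / l := by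
  set a : ℝ := ⟪n, w⟫
  set b : ℝ := ‖w - c • n‖ ^ 2 with hb
  have h1 : ‖w + l • n‖ ^ 2 = ‖w‖ ^ 2 + 2 * l * a + l ^ 2 := by
    rw [norm_add_sq_real, real_inner_smul_right, norm_smul, hn, mul_one, Real.norm_eq_abs,
      sq_abs, real_inner_comm n w]
    ring
  have h2 : ‖w‖ ^ 2 - a ^ 2 ≤ b := by
    rw [hb, norm_sub_sq_real, real_inner_smul_right, norm_smul, hn, mul_one, Real.norm_eq_abs,
      sq_abs, real_inner_comm n w]
    nlinarith [sq_nonneg (c - a)]
  have hb0 : 0 ≤ b / l := by positivity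
  have h3 : b ≤ 2 * (l + a) * (b / l) := by
    calc b = l * (b / l) := by field_simp
      _ ≤ 2 * (l + a) * (b / l) := by nlinarith
  have h4 : ‖w + l • n‖ ≤ l + a + b / l :=
    (pow_le_pow_iff_left₀ (norm_nonneg _) (by linarith) two_ne_zero).1 (by nlinarith)
  linarith

end Vale.Agent.P080C1.Improve
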