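import Vale.Agent.P080C1.Improve.Segments

/-!
A solution with pinched gradient is flatter on some smaller cylinder: pigeonhole over the scales
for the supremum of the gradient norm, then two opposite exit segments at a nearly maximal point.
-/

noncomputable section

open MeasureTheory Filter Topology Set
open scoped RealInnerProductSpace NNReal

namespace Vale.Agent.P080C1.Improve

/-- Some step loses at least `δ` unless every step keeps the bound. -/
theorem exists_step {P : ℕ → ℝ → Prop} {S δ : ℝ} {N : ℕ} (h0 : P 0 S)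
    (hN : ¬P N (S - N * δ)) : ∃ k < N, P k (S - k * δ) ∧ ¬P (k + 1) (S - k * δ - δ) := by
  induction N with
  | zero => simp [h0] at hN
  | succ n ih =>
    by_cases hn : P n (S - n * δ)
    · refine ⟨n, n.lt_succ_self, hn, ?_⟩
      have e : S - n * δ - δ = S - ((n + 1 : ℕ) : ℝ) * δ := by push_cast; ring
      rwa [e]
    · obtain ⟨k, hk, h⟩ := ih hn
      exact ⟨k, hk.trans n.lt_succ_self, h⟩

/-- An upward, nearly vertical segment. -/
structure Up (κ H : ℝ) (v : E3) : Prop where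
  height : v 2 = H
  width : hor v ≤ κ * H
  lower : H ≤ ‖v‖
  upper : ‖v‖ ≤ 2 * H

/-- The unit vector of a segment. -/
def dir (v : E3) : E3 := ‖v‖⁻¹ • v

namespace Up

variable {κ H : ℝ} {v : E3}

theorem pos (h : Up κ H v) (hH : 0 < H) : 0 < ‖v‖ := hH.trans_le h.lower

theorem norm_dir (h : Up κ H v) (hH : 0 < H) : ‖dir v‖ = 1 := by
  rw [dir, norm_smul, norm_inv, norm_norm, inv_mul_cancel₀ (h.pos hH).ne']

theorem smul_dir (h : Up κ H v) (hH : 0 < H) : ‖v‖ • dir v = v := by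
  rw [dir, smul_smul, mul_inv_cancel₀ (h.pos hH).ne', one_smul]

theorem dir_two (h : Up κ H v) (hH : 0 < H) : 1 / 2 ≤ dir v 2 ∧ dir v 2 ≤ 1 := by
  have e : dir v 2 = H / ‖v‖ := by
    simp [dir, h.height, div_eq_inv_mul]
  rw [e]
  exact ⟨by rw [le_div_iff₀ (h.pos hH)]; linarith [h.upper],
    (div_le_one (h.pos hH)).2 h.lower⟩

theorem hor_dir (h : Up κ H v) (hH : 0 < H) (hκ : 0 ≤ κ) : hor (dir v) ≤ κ := by
  rw [dir, hor_smul, abs_inv, abs_norm, inv_mul_le_iff₀ (h.pos hH)]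
  exact h.width.trans (by nlinarith [h.lower])

theorem dist_dir (h : Up κ H v) (hH : 0 < H) (hκ : 0 ≤ κ) : ‖dir v - ee 2‖ ≤ 2 * κ := by
  have h2 := (h.dir_two hH)
  have h3 := h.hor_dir hH hκ
  have h4 := hor_sq (dir v)
  rw [h.norm_dir hH] at h4
  refine (pow_le_pow_iff_left₀ (norm_nonneg _) (by positivity) two_ne_zero).1 ?_
  rw [norm_sub_sq_real, h.norm_dir hH, norm_ee_two, real_inner_comm, inner_ee_two]
  nlinarith [hor_nonneg (dir v)]

theorem exists_perp (h : Up κ H v) (hH : 0 < H) (hκ : 0 ≤ κ) {W : E3} {p r : ℝ} (h1 : |W 2| ≤ p)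
    (h2 : hor W ≤ r) : ∃ c : ℝ, ‖W - c • dir v‖ ≤ r + 2 * p * κ := by
  refine ⟨W 2 / dir v 2, ?_⟩
  obtain ⟨hl, -⟩ := h.dir_two hH
  have hn : (0 : ℝ) < dir v 2 := by linarith
  have e : (W - (W 2 / dir v 2) • dir v) 2 = 0 := by
    simp only [PiLp.sub_apply, PiLp.smul_apply, smul_eq_mul]
    field_simp
    ring
  refine (norm_le_add _).trans ?_
  rw [e, abs_zero, zero_add]
  refine (hor_sub _ _).trans (add_le_add h2 ?_)
  rw [hor_smul]
  refine mul_le_mul ?_ (h.hor_dir hH hκ) (hor_nonneg _) (by linarith [abs_nonneg (W 2)])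
  rw [abs_div, abs_of_pos hn, div_le_iff₀ hn]
  nlinarith [abs_nonneg (W 2)]

/-- Two segments with little loss of length have nearly equal directions. -/
theorem dir_close {w : E3} (h : Up κ H v) (h' : Up κ H w) (hH : 0 < H) (hκ : 0 ≤ κ) {η : ℝ}
    (hη : 0 ≤ η) (hlen : ‖v‖ + ‖w‖ - ‖v + w‖ ≤ η ^ 2 * H) :
    ‖dir v - dir w‖ ≤ 3 * η ∧ |(dir v - dir w) 2| ≤ 6 * η * κ := by
  have hv := h.norm_dir hH
  have hw := h'.norm_dir hH
  have e : (‖v‖ + ‖w‖) ^ 2 - ‖v + w‖ ^ 2 = ‖v‖ * ‖w‖ * ‖dir v - dir w‖ ^ 2 := by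
    conv_lhs => arg 2; rw [← h.smul_dir hH, ← h'.smul_dir hH]
    rw [norm_add_sq_real, norm_sub_sq_real, norm_smul, norm_smul, norm_norm, norm_norm, hv, hw,
      real_inner_smul_left, real_inner_smul_right]
    ring
  have h1 : ‖dir v - dir w‖ ≤ 3 * η := by
    refine (pow_le_pow_iff_left₀ (norm_nonneg _) (by positivity) two_ne_zero).1 ?_
    have hmul : H * H ≤ ‖v‖ * ‖w‖ := mul_le_mul h.lower h'.lower hH.le (norm_nonneg _)
    have hsum : ‖v‖ + ‖w‖ + ‖v + w‖ ≤ 8 * H := by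
      linarith [norm_add_le v w, h.upper, h'.upper]
    have h2 : (‖v‖ + ‖w‖) ^ 2 - ‖v + w‖ ^ 2 ≤ η ^ 2 * H * (8 * H) := by
      rw [sq_sub_sq, mul_comm]
      exact mul_le_mul hlen hsum (by positivity) (by positivity)
    rw [e] at h2
    have h3 : H * H * ‖dir v - dir w‖ ^ 2 ≤ H * H * (8 * η ^ 2) :=
      (mul_le_mul_of_nonneg_right hmul (sq_nonneg _)).trans (by linarith)
    have := le_of_mul_le_mul_left h3 (by positivity)
    nlinarith [sq_nonneg η]
  refine ⟨h1, ?_⟩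
  obtain ⟨hv2, -⟩ := h.dir_two hH
  obtain ⟨hw2, -⟩ := h'.dir_two hH
  have e2 := hor_sq (dir v)
  have e3 := hor_sq (dir w)
  rw [hv] at e2
  rw [hw] at e3
  have hd : |hor (dir v) - hor (dir w)| ≤ ‖dir v - dir w‖ := by
    have p1 := hor_add (dir v - dir w) (dir w)
    have p2 := hor_add (dir w - dir v) (dir v)
    rw [sub_add_cancel] at p1 p2
    have p3 : hor (dir w - dir v) = hor (dir v - dir w) := by rw [← hor_neg, neg_sub]
    rw [abs_le]
    constructor <;> linarith [hor_le_norm (dir v - dir w)]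
  have hh : 0 ≤ hor (dir v) + hor (dir w) := by linarith [hor_nonneg (dir v), hor_nonneg (dir w)]
  have key : |(dir v - dir w) 2| * (dir v 2 + dir w 2) =
      |hor (dir v) - hor (dir w)| * (hor (dir v) + hor (dir w)) := by
    rw [← abs_of_pos (by linarith : (0 : ℝ) < dir v 2 + dir w 2), ← abs_mul, ← abs_of_nonneg hh,
      ← abs_mul, PiLp.sub_apply]
    rw [← abs_neg]
    congr 1
    nlinarith
  calc |(dir v - dir w) 2| ≤ |(dir v - dir w) 2| * (dir v 2 + dir w 2) :=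
        le_mul_of_one_le_right (abs_nonneg _) (by linarith)
    _ ≤ 3 * η * (2 * κ) := by
        rw [key]
        exact mul_le_mul (hd.trans h1) (by linarith [h.hor_dir hH hκ, h'.hor_dir hH hκ]) hh
          (by positivity)
    _ = 6 * η * κ := by ring

end Up

/-- Two opposite segments of nearly maximal slope from a point give flatness around it. -/
theorem flat_of_segments {u : E3 → ℝ} {D : Set E3} {m s' d H κ p r : ℝ} {y vp vm : E3}
    (hup : Up κ H vp) (hum : Up κ H vm) (hH : 0 < H) (hκ : 0 ≤ κ) (hm : 0 ≤ m) (hm2 : m ≤ 2)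
    (hd : 0 ≤ d) (hs : s' = m - d) (hp : 0 ≤ p) (hr : 0 ≤ r) (hpH : 2 * (p + r) ≤ H)
    (hseg : ∀ a ∈ D, ∀ b ∈ D, u b - u a ≤ m * ‖b - a‖)
    (hpD : y + vp ∈ D) (hmD : y - vm ∈ D)
    (hpv : s' * ‖vp‖ ≤ u (y + vp) - u y) (hmv : s' * ‖vm‖ ≤ u y - u (y - vm))
    {η : ℝ} (hη : 0 ≤ η) (hs' : 1 / 2 ≤ s') (hdη : 8 * d ≤ η ^ 2)
    {X : E3} (hX : X ∈ D) (h1 : |(X - y) 2| ≤ p) (h2 : hor (X - y) ≤ r) :
    |u X - u y - ⟪m • dir vm, X - y⟫| ≤
      2 * d * H + 2 * ((r + 2 * p * κ) ^ 2 / H) + 2 * (6 * η * κ * p + 3 * η * r) := by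
  set W := X - y with hW
  set np := dir vp with hnp
  set nm := dir vm with hnm
  have hlp := hup.pos hH
  have hlm := hum.pos hH
  have hlen : ‖vp‖ + ‖vm‖ - ‖vp + vm‖ ≤ η ^ 2 * H := by
    have h := hseg _ hmD _ hpD
    rw [show y + vp - (y - vm) = vp + vm by abel] at h
    have h3 : s' * (‖vp‖ + ‖vm‖) ≤ m * ‖vp + vm‖ := by linarith
    rw [show m = s' + d by linarith] at h3
    have h4 : ‖vp + vm‖ ≤ 4 * H := by linarith [norm_add_le vp vm, hup.upper, hum.upper]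
    have h5 : s' * (‖vp‖ + ‖vm‖ - ‖vp + vm‖) ≤ d * (4 * H) := by
      nlinarith [mul_le_mul_of_nonneg_left h4 hd]
    have h6 : 0 ≤ ‖vp‖ + ‖vm‖ - ‖vp + vm‖ := by linarith [norm_add_le vp vm]
    nlinarith [mul_le_mul_of_nonneg_right hs' h6, mul_le_mul_of_nonneg_right hdη hH.le]
  obtain ⟨hc1, hc2⟩ := hup.dir_close hum hH hκ hη hlen
  have hWn : ‖W‖ ≤ p + r := (norm_le_add W).trans (add_le_add h1 h2)
  have hΔ : |⟪np - nm, W⟫| ≤ 6 * η * κ * p + 3 * η * r := by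
    have e : ⟪np - nm, W⟫ = (np - nm) 2 * W 2 + ⟪np - nm, W - W 2 • ee 2⟫ := by
      rw [inner_sub_right (np - nm) W, real_inner_smul_right, real_inner_comm (ee 2) (np - nm),
        inner_ee_two]
      ring
    rw [e]
    refine (abs_add_le _ _).trans (add_le_add ?_ ?_)
    · rw [abs_mul]
      exact mul_le_mul hc2 h1 (abs_nonneg _) (by positivity)
    · refine (abs_real_inner_le_norm _ _).trans ?_
      exact mul_le_mul hc1 h2 (norm_nonneg _) (by positivity)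
  have hquad : ∀ {v : E3}, Up κ H v → ∀ {Z : E3}, |Z 2| ≤ p → hor Z ≤ r → ‖Z‖ ≤ p + r →
      m * (‖Z + ‖v‖ • dir v‖ - ‖v‖) ≤ m * ⟪dir v, Z⟫ + 2 * ((r + 2 * p * κ) ^ 2 / H) := by
    intro v hv Z hZ1 hZ2 hZn
    obtain ⟨c, hc⟩ := hv.exists_perp hH hκ hZ1 hZ2
    have hin := abs_le.1 (abs_real_inner_le_norm (dir v) Z)
    rw [hv.norm_dir hH, one_mul] at hin
    have h := norm_add_smul_sub_le (hv.norm_dir hH) (hv.pos hH)
      (w := Z) (by linarith [hv.lower]) c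
    have hb : ‖Z - c • dir v‖ ^ 2 / ‖v‖ ≤ (r + 2 * p * κ) ^ 2 / H :=
      div_le_div₀ (sq_nonneg _) (pow_le_pow_left₀ (norm_nonneg _) hc 2) hH hv.lower
    calc m * (‖Z + ‖v‖ • dir v‖ - ‖v‖)
        ≤ m * (⟪dir v, Z⟫ + (r + 2 * p * κ) ^ 2 / H) :=
          mul_le_mul_of_nonneg_left (by linarith) hm
      _ ≤ _ := by
          rw [mul_add]
          have : 0 ≤ (r + 2 * p * κ) ^ 2 / H := by positivity
          nlinarith
  have hdp : d * ‖vp‖ ≤ 2 * d * H := by nlinarith [hup.upper]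
  have hdm : d * ‖vm‖ ≤ 2 * d * H := by nlinarith [hum.upper]
  have hU : u X - u y ≤ m * ⟪nm, W⟫ + 2 * d * H + 2 * ((r + 2 * p * κ) ^ 2 / H) := by
    have h := hseg _ hmD _ hX
    rw [show X - (y - vm) = W + ‖vm‖ • dir vm by rw [hum.smul_dir hH, hW]; abel] at h
    have hq := hquad hum h1 h2 hWn
    rw [hs] at hmv
    linarith
  have hL : m * ⟪np, W⟫ - 2 * d * H - 2 * ((r + 2 * p * κ) ^ 2 / H) ≤ u X - u y := by
    have h := hseg _ hX _ hpD
    rw [show y + vp - X = -W + ‖vp‖ • dir vp by rw [hup.smul_dir hH, hW]; abel] at h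
    have hq := hquad hup (Z := -W) (by simpa using h1) (by rw [hor_neg]; exact h2)
      (by rwa [norm_neg])
    rw [inner_neg_right] at hq
    rw [hs] at hpv
    linarith
  have hmΔ : |m * ⟪np, W⟫ - m * ⟪nm, W⟫| ≤ 2 * (6 * η * κ * p + 3 * η * r) := by
    rw [← mul_sub, ← inner_sub_left, abs_mul, abs_of_nonneg hm]
    exact mul_le_mul hm2 hΔ (abs_nonneg _) two_pos.le
  rw [real_inner_smul_left, abs_le]
  have hmΔ' := abs_le.1 hmΔ
  have h0 : 0 ≤ 6 * η * κ * p + 3 * η * r := by positivity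
  constructor <;> linarith

/-- The width of the window around the centre, in units of the radius. -/
def width (L K : ℝ) : ℝ := 2 * L + K + 4

/-- A cylinder with nearly vertical axis lies in a box. -/
theorem cyl_window {ε θ L K : ℝ} (hse1 : √ε ≤ 1) (hε : 0 < ε) (hθ : 0 < θ) (hL : 0 < L)
    (hK : 0 ≤ K) {n y X : E3} (hn : ‖n‖ = 1) (hnh : hor n ≤ √ε * K) (hy : y ∈ box ε θ)
    (hX : X ∈ cyl 0 n θ (2 * L * √(ε / 2) * θ)) :
    |(X - y) 2| ≤ width L K * θ ∧ hor (X - y) ≤ width L K * √ε * θ ∧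
      X ∈ box ε (width L K * θ) := by
  have hse : 0 < √ε := Real.sqrt_pos.2 hε
  simp only [cyl, sub_zero, hn, mul_one, one_pow, mem_ofPred_eq] at hX
  obtain ⟨hX1, hX2⟩ := hX
  have hw : ‖X - ⟪n, X⟫ • n‖ ≤ 2 * L * √ε * θ := by
    refine le_trans ((pow_le_pow_iff_left₀ (norm_nonneg _)
      (by positivity : (0 : ℝ) ≤ 2 * L * √(ε / 2) * θ) two_ne_zero).1 ?_) ?_
    · rw [norm_sub_sq_real, real_inner_smul_right, norm_smul, hn, mul_one, Real.norm_eq_abs,
        sq_abs, real_inner_comm n X]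
      linarith
    · gcongr
      linarith
  have hx2 : |X 2| ≤ (1 + 2 * L) * θ := by
    have e : X 2 = ⟪n, X⟫ * n 2 + (X - ⟪n, X⟫ • n) 2 := by simp
    rw [e]
    refine (abs_add_le _ _).trans ?_
    rw [abs_mul]
    have h1 := mul_le_mul hX1 (abs_two_le_norm n) (abs_nonneg _) hθ.le
    rw [hn, mul_one] at h1
    have h2 := (abs_two_le_norm _).trans hw
    have h3 : 2 * L * √ε * θ ≤ 2 * L * 1 * θ := by gcongr
    linarith
  have hxh : hor X ≤ (2 * L + K) * √ε * θ := by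
    have h0 := hor_add (⟪n, X⟫ • n) (X - ⟪n, X⟫ • n)
    rw [add_sub_cancel, hor_smul] at h0
    have h1 := mul_le_mul hX1 hnh (hor_nonneg _) hθ.le
    have h2 := (hor_le_norm _).trans hw
    linarith
  have hKθ : 0 ≤ K * θ := by positivity
  refine ⟨?_, ?_, ?_, ?_⟩
  · rw [PiLp.sub_apply]
    refine (abs_sub _ _).trans ?_
    rw [width]
    linarith [hy.1]
  · refine (hor_sub _ _).trans ?_
    rw [width]
    linarith [hy.2, mul_pos hse hθ]
  · rw [width]
    linarith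
  · refine hxh.trans_lt ?_
    rw [width]
    linarith [mul_pos hse hθ]

/-- The constant of the flatness error. -/
def errConst (L K : ℝ) : ℝ := width L K * (2 + 2 * (1 + 2 * K) ^ 2 + 36 * K + 18)

theorem err_eq {ε e θ A K H : ℝ} (hε : 0 ≤ ε) (he : e ≠ 0) (hA : A ≠ 0) (hθ : θ ≠ 0)
    (hH : H = A * θ / e) :
    2 * (ε * e ^ 2) * H + 2 * ((A * √ε * θ + 2 * (A * θ) * (√ε * K)) ^ 2 / H) +
      2 * (6 * (3 * √ε * e) * (√ε * K) * (A * θ) + 3 * (3 * √ε * e) * (A * √ε * θ)) =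
    e * (A * (2 + 2 * (1 + 2 * K) ^ 2 + 36 * K + 18)) * (θ * ε) := by
  obtain ⟨t, ht⟩ : ∃ t, √ε = t := ⟨_, rfl⟩
  have hsq : ε = t * t := by rw [← ht, Real.mul_self_sqrt hε]
  subst hH
  rw [ht, hsq]
  field_simp
  ring

/-- The flatter cylinder at a scale where the supremum of the gradient norm stabilises. -/
theorem flat_step (hCS : ConeSlopeProp) {C L S₀ ε θ e M S : ℝ} (hC : 0 ≤ C) (hL : 0 < L)
    (hS₀ : 0 ≤ S₀) (hε : 0 < ε) (hθ : 0 < θ) (he : 0 < e) (he4 : e ≤ 1 / 4)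
    (heG : e * errConst L (tilt C S₀) ≤ 1 / 4)
    (hM : M = (tilt C S₀ + 2) * (width L (tilt C S₀) / e) + 2)
    (hsmall : √ε * (S₀ + 2 * C + 1) ≤ 1 / 2) (hSl : -S₀ ≤ S - e ^ 2) (hSu : S + 1 ≤ S₀)
    {O : Set E3} {u : E3 → ℝ} {B : ℝ≥0} (hO : IsOpen O) (hu : IsInfHarmonicOn O u)
    (hDO : box ε (M * θ) ⊆ O) (hLip : LipschitzOnWith B u (box ε (M * θ)))
    (hae : ∀ᵐ x ∂volume.restrict (box ε (M * θ)),
      DifferentiableAt ℝ u x ∧ Near C ε (fderiv ℝ u x))
    (hup' : ∀ᵐ x ∂volume.restrict (box ε (M * θ)), ‖fderiv ℝ u x‖ ≤ 1 + ε * S)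
    {y : E3} (hyb : y ∈ box ε θ) (hyd : DifferentiableAt ℝ u y)
    (hyf : 1 + ε * (S - e ^ 2) ≤ ‖fderiv ℝ u y‖) :
    ∃ q : E3, ‖q‖ = 1 + ε * S ∧ dist q (ee 2) ≤ (S₀ + 2 * tilt C S₀) * √ε ∧
      cyl 0 q θ (2 * L * √(ε / 2) * θ) ⊆ box ε (M * θ) ∧
      FlatOn u (cyl 0 q θ (2 * L * √(ε / 2) * θ)) q (ε * θ / 4) := by
  set K := tilt C S₀ with hK
  have hK2 : 2 ≤ K := by
    have : 0 ≤ 4 * C + 8 * (S₀ + C) := by positivity
    rw [hK, tilt]; linarith
  set A := width L K with hA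
  have hA4 : 4 ≤ A := by rw [hA, width]; linarith
  have hse : 0 < √ε := Real.sqrt_pos.2 hε
  have hsq : √ε * √ε = ε := Real.mul_self_sqrt hε.le
  have hεS₀ : √ε * S₀ + √ε ≤ 1 / 2 := by linarith [mul_nonneg hse.le hC]
  have hse1 : √ε ≤ 1 / 2 := by linarith [mul_nonneg hse.le hS₀]
  have hle : ε ≤ √ε := by
    calc ε = √ε * √ε := hsq.symm
      _ ≤ √ε * 1 := mul_le_mul_of_nonneg_left (by linarith) hse.le
      _ = √ε := mul_one _
  set H := A * θ / e with hH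
  have hH0 : 0 < H := by positivity
  have hAθ : 4 * (A * θ) ≤ H := by
    rw [hH, le_div_iff₀ he]
    have := mul_le_mul_of_nonneg_left he4 (by positivity : 0 ≤ A * θ)
    linarith
  have hMθ : M * θ = (K + 2) * H + 2 * θ := by rw [hM, hH]; ring
  have hKH : 0 ≤ K * H := by positivity
  set D := box ε (M * θ) with hD
  have hin : ∀ z : E3, |(z - y) 2| ≤ H → hor (z - y) ≤ √ε * K * H → z ∈ D := by
    intro z h1 h2
    refine ⟨?_, ?_⟩
    · have := abs_sub_abs_le_abs_sub (z 2) (y 2)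
      rw [PiLp.sub_apply] at h1
      linarith [hyb.1]
    · have h3 := hor_add (z - y) y
      rw [sub_add_cancel] at h3
      have h4 : √ε * (θ + K * H) ≤ √ε * (M * θ) := mul_le_mul_of_nonneg_left (by linarith) hse.le
      linarith [hyb.2]
  have hnear : ∀ z ∈ D, |u z - u y - (z - y) 2| ≤ C * (ε * |(z - y) 2| + √ε * hor (z - y)) :=
    fun z hz => near_segment hLip (isOpen_box ε (M * θ)) (convex_box ε (M * θ)) hae
      (box_subset (by linarith) hyb) hz
  obtain ⟨vp, hpD, hp2, hph, hpl, hpu, hpv⟩ := exit_segment hCS hO hu hyd hC hS₀ hε hsmall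
    (σ := 1) (one_mul 1) hH0 hSl hyf hDO hin (fun z hz => by rw [one_mul]; exact hnear z hz)
  obtain ⟨vm, hmD, hm2, hmh, hml, hmu, hmv⟩ := exit_segment (g := fun x => -u x) hCS hO
    (isInfHarmonicOn_neg hu) (by exact hyd.neg) hC hS₀ hε hsmall
    (σ := -1) (by norm_num) hH0 hSl (by rw [fderiv_fun_neg, norm_neg]; exact hyf) hDO hin
    (fun z hz => by
      refine le_of_eq_of_le ?_ (hnear z hz)
      rw [← abs_neg]
      congr 1
      ring)
  have hκ0 : 0 ≤ √ε * K := by positivity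
  have hup : Up (√ε * K) H vp := ⟨by rwa [one_mul] at hp2, hph, hpl, hpu⟩
  have hum : Up (√ε * K) H (-vm) :=
    ⟨by simpa using hm2, by rwa [hor_neg], by rwa [norm_neg], by rwa [norm_neg]⟩
  set n := dir (-vm) with hn
  have hn1 : ‖n‖ = 1 := hum.norm_dir hH0
  have hεS : |ε * S| ≤ √ε * S₀ := by
    rw [abs_mul, abs_of_pos hε]
    exact mul_le_mul hle (abs_le.2 ⟨by linarith [sq_nonneg e], by linarith⟩) (abs_nonneg _) hse.le
  have hεS' := abs_le.1 hεS
  have hm0 : 0 < 1 + ε * S := by linarith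
  have hwin : ∀ X ∈ cyl 0 ((1 + ε * S) • n) θ (2 * L * √(ε / 2) * θ),
      |(X - y) 2| ≤ A * θ ∧ hor (X - y) ≤ A * √ε * θ ∧ X ∈ D := by
    intro X hX
    rw [cyl_smul hm0] at hX
    obtain ⟨h1, h2, h3⟩ := cyl_window (by linarith) hε hθ hL (by linarith : 0 ≤ K) hn1
      (hum.hor_dir hH0 hκ0) hyb hX
    exact ⟨h1, h2, box_subset (by linarith) h3⟩
  refine ⟨(1 + ε * S) • n, by rw [norm_smul, hn1, mul_one, Real.norm_eq_abs, abs_of_pos hm0], ?_,
    fun X hX => (hwin X hX).2.2, ⟨u y - ⟪(1 + ε * S) • n, y⟫, fun X hX => ?_⟩⟩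
  · rw [dist_eq_norm, show (1 + ε * S) • n - ee 2 = (ε * S) • n + (n - ee 2) by module]
    refine (norm_add_le _ _).trans ?_
    rw [norm_smul, hn1, mul_one, Real.norm_eq_abs]
    have h := hum.dist_dir hH0 hκ0
    rw [← hn] at h
    linarith
  obtain ⟨h1, h2, hXD⟩ := hwin X hX
  have hd1 : ε * e ^ 2 ≤ √ε := le_trans (mul_le_of_le_one_right hε.le (pow_le_one₀ he.le (by linarith))) hle
  have hr : A * √ε * θ ≤ A * θ := by
    have := mul_le_mul_of_nonneg_left (by linarith : √ε ≤ 1) (by positivity : 0 ≤ A * θ)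
    linarith
  have hmain := flat_of_segments (u := u) (D := D) (m := 1 + ε * S)
    (s' := 1 + ε * (S - e ^ 2)) (d := ε * e ^ 2) (p := A * θ) (r := A * √ε * θ)
    (η := 3 * √ε * e) (X := X) (y := y) hup hum hH0 hκ0
    hm0.le (by linarith) (by positivity) (by ring) (by positivity) (by positivity) (by linarith)
    (fun p hp q hq => segment_le_norm hLip (isOpen_box ε (M * θ)) (convex_box ε (M * θ)) hp hq
      (hup'.mono fun x hx _ => hx))
    hpD (by rwa [sub_neg_eq_add]) hpv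
    (by simp only [norm_neg, sub_neg_eq_add] at hmv ⊢; linarith) (by positivity)
    (by linarith) (by rw [mul_pow, mul_pow, sq √ε, hsq]; linarith [mul_pos hε (pow_pos he 2)])
    hXD h1 h2
  rw [err_eq hε.le he.ne' (by linarith) hθ.ne' hH] at hmain
  refine le_trans (le_of_eq ?_) (hmain.trans ?_)
  · rw [inner_sub_right]
    congr 1
    ring
  · calc e * (A * (2 + 2 * (1 + 2 * K) ^ 2 + 36 * K + 18)) * (θ * ε) ≤ 1 / 4 * (θ * ε) :=
          mul_le_mul_of_nonneg_right (by simpa [errConst, hA] using heG) (by positivity)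
      _ = ε * θ / 4 := by ring

/-- Some smaller cylinder is flatter. -/
theorem exists_flat (hCS : ConeSlopeProp) {C L a : ℝ} (hC : 1 ≤ C) (hL : 0 < L) (ha : 0 < a)
    (ha2 : a ≤ 1 / 2) : ∃ θ₀ C' ε₀ : ℝ, 0 < θ₀ ∧ θ₀ ≤ 1 / 2 ∧ 0 < C' ∧ 0 < ε₀ ∧
      ∀ (O : Set E3) (u : E3 → ℝ) (B : ℝ≥0) (ε : ℝ), IsOpen O → IsInfHarmonicOn O u → 0 < ε →
        ε ≤ ε₀ → box ε a ⊆ O → LipschitzOnWith B u (box ε a) →
        (∀ᵐ x ∂volume.restrict (box ε a), DifferentiableAt ℝ u x ∧ Near C ε (fderiv ℝ u x)) →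
        ∃ θ ∈ Icc θ₀ (1 / 2), ∃ q : E3, ‖q‖ ∈ Icc (1 - C' * ε) (1 + C' * ε) ∧
          dist q (ee 2) ≤ C' * √ε ∧ cyl 0 q θ (2 * L * √(ε / 2) * θ) ⊆ box ε a ∧
          FlatOn u (cyl 0 q θ (2 * L * √(ε / 2) * θ)) q (ε * θ / 4) := by
  have hC0 : 0 ≤ C := by linarith
  set S₁ := C + C ^ 2 with hS₁
  set S₀ := S₁ + 1 with hS₀
  have hS₀0 : 0 ≤ S₀ := by positivity
  set K := tilt C S₀ with hK
  have hK0 : 0 ≤ K := by rw [hK, tilt]; positivity
  have hG0 : 0 < errConst L K := by rw [errConst, width]; positivity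
  set e := min (1 / 4) (1 / (4 * errConst L K)) with he
  have he0 : 0 < e := lt_min (by norm_num) (by positivity)
  have he4 : e ≤ 1 / 4 := min_le_left _ _
  have heG : e * errConst L K ≤ 1 / 4 := by
    calc e * errConst L K ≤ 1 / (4 * errConst L K) * errConst L K :=
          mul_le_mul_of_nonneg_right (min_le_right _ _) hG0.le
      _ = 1 / 4 := by field_simp
  set δ := e ^ 2 with hδ
  have hδ0 : 0 < δ := by positivity
  have hδ1 : δ ≤ 1 := by rw [hδ]; nlinarith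
  set M := (K + 2) * (width L K / e) + 2 with hM
  have hA0 : 0 ≤ width L K / e := div_nonneg (by rw [width]; positivity) he0.le
  have hM1 : 1 ≤ M := by nlinarith
  have hM0 : 0 < M := by linarith
  obtain ⟨N, hN⟩ := exists_nat_gt ((S₁ + C) / δ)
  set T := S₀ + 2 * C + 1 with hT
  have hT0 : 0 < T := by linarith
  refine ⟨a / M ^ N, S₀ + 2 * K + 1, (1 / (2 * T)) ^ 2, by positivity,
    (div_le_self ha.le (one_le_pow₀ hM1)).trans ha2, by positivity, by positivity, ?_⟩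
  intro O u B ε hO hu hε hε' hsub hLip hae
  have hsmall : √ε * T ≤ 1 / 2 := by
    have h : √ε ≤ 1 / (2 * T) := by
      rw [Real.sqrt_le_left (by positivity)]
      exact hε'
    calc √ε * T ≤ 1 / (2 * T) * T := mul_le_mul_of_nonneg_right h hT0.le
      _ = 1 / 2 := by field_simp
  set r : ℕ → ℝ := fun k => a / M ^ k with hr
  have hr0 : ∀ k, 0 < r k := fun k => by positivity
  have hra : ∀ k, r k ≤ a := fun k => div_le_self ha.le (one_le_pow₀ hM1)
  have hrM : ∀ k, M * r (k + 1) = r k := fun k => by simp only [hr, pow_succ]; field_simp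
  set P : ℕ → ℝ → Prop := fun k S =>
    ∀ᵐ x ∂volume.restrict (box ε (r k)), ‖fderiv ℝ u x‖ ≤ 1 + ε * S with hP
  have haek : ∀ k, ∀ᵐ x ∂volume.restrict (box ε (r k)),
      DifferentiableAt ℝ u x ∧ Near C ε (fderiv ℝ u x) := fun k =>
    ae_restrict_of_ae_restrict_of_subset (box_subset (hra k)) hae
  have hlow : ∀ k S, P k S → -C ≤ S := by
    intro k S hS
    have hpos : volume (box ε (r k)) ≠ 0 :=
      ((isOpen_box ε (r k)).measure_pos volume ⟨0, zero_mem_box hε (hr0 k)⟩).ne'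
    have : (ae (volume.restrict (box ε (r k)))).NeBot := ae_restrict_neBot.2 hpos
    obtain ⟨x, ⟨-, hx⟩, hx'⟩ := ((haek k).and hS).exists
    nlinarith [hx.norm_ge]
  have hP0 : P 0 S₁ := by
    filter_upwards [haek 0] with x hx
    have := hx.2.norm_le hC0 hε.le
    rw [hS₁]; linarith
  obtain ⟨k, hkN, hk, hk'⟩ := exists_step (δ := δ) hP0 (fun h => by
    have h1 := hlow _ _ h
    rw [div_lt_iff₀ hδ0] at hN
    linarith)
  set S := S₁ - k * δ with hS
  have hSl : -C ≤ S := hlow _ _ hk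
  have hSu : S ≤ S₁ := by
    have : 0 ≤ (k : ℝ) * δ := by positivity
    linarith
  have hC2 : C ≤ S₁ := by rw [hS₁]; nlinarith
  -- a point of nearly maximal slope
  obtain ⟨y, hyb, hyd, hyf⟩ : ∃ y ∈ box ε (r (k + 1)), DifferentiableAt ℝ u y ∧
      1 + ε * (S - δ) ≤ ‖fderiv ℝ u y‖ := by
    by_contra hcon
    push Not at hcon
    refine hk' ?_
    filter_upwards [haek (k + 1),
      ae_restrict_mem (isOpen_box ε (r (k + 1))).measurableSet] with x hx hxb
    exact (hcon x hxb hx.1).le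
  have hDa : box ε (M * r (k + 1)) ⊆ box ε a := box_subset (by rw [hrM]; exact hra k)
  obtain ⟨q, hq1, hq2, hq3, hq4⟩ := flat_step hCS hC0 hL hS₀0 hε (hr0 (k + 1)) he0 he4 heG hM
    hsmall (by linarith) (by linarith) hO hu (hDa.trans hsub) (hLip.mono hDa)
    (by rw [hrM]; exact haek k) (by rw [hrM]; exact hk) hyb hyd hyf
  refine ⟨r (k + 1), ⟨?_, (hra _).trans ha2⟩, q, ?_, ?_, hq3.trans hDa, hq4⟩
  · exact div_le_div_of_nonneg_left ha.le (by positivity) (pow_le_pow_right₀ hM1 hkN)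
  · rw [hq1]
    have h1 : ε * |S| ≤ ε * (S₀ + 2 * K + 1) :=
      mul_le_mul_of_nonneg_left (abs_le.2 ⟨by linarith, by linarith⟩) hε.le
    have h3 : |ε * S| ≤ ε * (S₀ + 2 * K + 1) := by rw [abs_mul, abs_of_pos hε]; exact h1
    have h2 := abs_le.1 h3
    constructor <;> linarith
  · refine hq2.trans (mul_le_mul_of_nonneg_right ?_ (Real.sqrt_nonneg _))
    linarith

end Vale.Agent.P080C1.Improve
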