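import Vale.Agent.P080C1.Improve.Core

/-!
One step of the improvement of flatness, from the models and their gradient estimate.
-/

noncomputable section

open MeasureTheory Filter Topology Set
open scoped RealInnerProductSpace NNReal

namespace Vale.Agent.P080C1.Improve

/-- Limits of models are Lipschitz on convex sets. -/
theorem lipschitzOn_of_isApprox {U S : Set E3} {ut : E3 → ℝ} {v : ℕ → E3 → ℝ} {κ : ℕ → ℝ}
    (h : IsApprox U ut v κ) (hS : S ⊆ U) (hconv : Convex ℝ S) :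
    ∃ B : ℝ≥0, LipschitzOnWith B ut S := by
  obtain ⟨B, hB⟩ := h.grad_bound
  refine ⟨B.toNNReal, LipschitzOnWith.of_dist_le_mul fun x hx y hy => ?_⟩
  have hlim : Tendsto (fun n => dist (v n x) (v n y)) atTop (𝓝 (dist (ut x) (ut y))) :=
    (h.conv.tendsto_at (hS hx)).dist (h.conv.tendsto_at (hS hy))
  refine le_of_tendsto hlim (Eventually.of_forall fun n => ?_)
  rw [Real.dist_eq, dist_eq_norm, ← Real.norm_eq_abs]
  refine hconv.norm_image_sub_le_of_norm_fderiv_le (𝕜 := ℝ) (fun z hz => ?_) (fun z hz => ?_) hy hx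
  · exact ((h.smooth n).contDiffAt (h.isOpen.mem_nhds (hS hz))).differentiableAt (by simp)
  · rw [← gnorm_eq_norm_fderiv]
    exact (hB n z (hS hz)).trans (Real.le_coe_toNNReal B)

/-- Improvement of flatness. -/
theorem improve (hM : ModelProp) (hG : GradientProp) (hCS : ConeSlopeProp) : ImproveProp := by
  obtain ⟨L₀, hL₀, hM'⟩ := hM
  obtain ⟨LG, CG, εG, hLG, hCG, hεG, hG'⟩ := hG
  set L := max L₀ (2 * LG) with hL
  obtain ⟨CM, εM, hCM, hεM, hmod⟩ := hM' L (le_max_left _ _)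
  have hL0 : 0 < L := hL₀.trans_le (le_max_left _ _)
  have hLL : 2 * LG ≤ L := le_max_right _ _
  set a := min (1 / 8) (LG / 4) with ha
  have ha0 : 0 < a := lt_min (by norm_num) (by positivity)
  have ha8 : a ≤ 1 / 8 := min_le_left _ _
  have haL : a ≤ LG / 4 := min_le_right _ _
  obtain ⟨θ₀, C', ε₁, hθ₀, hθ₀', hC', hε₁, hcore⟩ :=
    exists_flat hCS (C := max 1 (4 * CG)) (le_max_left _ _) hL0 ha0 (by linarith)
  refine ⟨L, θ₀, C', min (min εM (εG / 4)) (min ε₁ (min (1 / CM) (θ₀ / (4 * CM)))), hL0, hθ₀,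
    hθ₀', hC', by positivity, ?_⟩
  intro u ε O hO hu hε hε' hsub hflat
  simp only [le_min_iff] at hε'
  obtain ⟨⟨hεM', hεG'⟩, hε₁', hεC, hεθ⟩ := hε'
  have hse : 0 ≤ √ε := Real.sqrt_nonneg _
  obtain ⟨U, ut, v, κ, hmd, hSU, hclose⟩ := hmod O u ε hO hu hε hεM' hsub hflat
  have hCε : CM * ε ≤ 1 := by
    rw [le_div_iff₀ hCM] at hεC; linarith
  have hρ : 0 ≤ 1 / 2 * (L * √ε) := by positivity
  have hρ1 : 0 ≤ L * √ε := by positivity
  set S := cyl₀ (1 / 2) (1 / 2 * (L * √ε)) with hS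
  have hS1 : S ⊆ cyl₀ 1 (L * √ε) := fun y hy => by
    rw [hS, mem_cyl₀_iff hρ] at hy
    exact (mem_cyl₀_iff hρ1).2 ⟨by linarith, by linarith⟩
  have hflat' : FlatOn ut S (ee 2) (2 * ε) := by
    obtain ⟨c, hc⟩ := hflat
    refine ⟨c, fun y hy => ?_⟩
    have h1 := abs_sub_le (ut y) (u y) (c + ⟪ee 2, y⟫)
    have h2 := hclose y hy
    have h3 := hc y (hS1 hy)
    nlinarith
  -- the model read at half scale
  set A : E3 ≃ₗᵢ[ℝ] E3 := LinearIsometryEquiv.refl ℝ E3 with hA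
  have hw := hmd.simFun (R := 1 / 2) (s := 1) (by norm_num) one_pos 0 A 0
  have he : A.symm (ee 2) = ee 2 := rfl
  rw [he] at hw
  have h4 : √(4 * ε) = 2 * √ε := by
    rw [Real.sqrt_mul (by norm_num), show (4 : ℝ) = 2 ^ 2 by norm_num,
      Real.sqrt_sq (by norm_num)]
  have hρ2 : 0 ≤ LG * √(4 * ε) := by positivity
  have hsimsub : cyl₀ 1 (LG * √(4 * ε)) ⊆ simMap 0 (1 / 2) A ⁻¹' S := by
    intro y hy
    rw [mem_cyl₀_iff hρ2, h4] at hy
    have e : simMap 0 (1 / 2) A y = (1 / 2 : ℝ) • y := by simp [simMap, hA]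
    rw [mem_preimage, e, hS, mem_cyl₀_iff hρ, hor_smul]
    refine ⟨?_, ?_⟩
    · simp only [PiLp.smul_apply, smul_eq_mul, abs_mul]
      norm_num
      linarith
    · norm_num
      nlinarith [mul_le_mul_of_nonneg_right hLL hse]
  have hwflat := (hflat'.simFun (R := 1 / 2) (s := 1) (by norm_num) one_pos 0 A 0).mono hsimsub
    (le_of_eq (by ring : 2 * ε / (1 * (1 / 2)) = 4 * ε))
  rw [he, inv_one, one_smul] at hwflat
  have hgrad := hG' _ _ _ _ _ _ hw (by rw [ee_two_two]; norm_num) (by positivity)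
    (by linarith) (hsimsub.trans (preimage_mono hSU)) hwflat
  -- back to the original scale
  have hboxS : box ε a ⊆ S := by
    refine box_subset_cyl₀ hρ (by linarith) ?_
    nlinarith [mul_le_mul_of_nonneg_left (haL.trans (by linarith : LG / 4 ≤ L / 2)) hse]
  have hnear : ∀ᵐ x ∂volume.restrict (box ε a),
      DifferentiableAt ℝ ut x ∧ Near (max 1 (4 * CG)) ε (fderiv ℝ ut x) := by
    have h1 := (Measure.quasiMeasurePreserving_smul (volume : Measure E3)
      (two_ne_zero (α := ℝ))).ae (ae_imp_of_ae_restrict hgrad)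
    filter_upwards [ae_restrict_of_ae h1,
      ae_restrict_mem (isOpen_box ε a).measurableSet] with x hx hxb
    have hsim : simMap 0 (1 / 2) A ((2 : ℝ) • x) = x := by simp [simMap, hA, smul_smul]
    have hmem : (2 : ℝ) • x ∈ cyl₀ (1 / 4) (1 / 4 * (LG * √(4 * ε))) := by
      rw [mem_cyl₀_iff (by positivity), h4, hor_smul]
      refine ⟨?_, ?_⟩
      · simp only [PiLp.smul_apply, smul_eq_mul, abs_mul, abs_two]
        linarith [hxb.1]
      · rw [abs_two]
        nlinarith [hxb.2, mul_le_mul_of_nonneg_left haL hse]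
    obtain ⟨hd, h2, h0, h1'⟩ := hx hmem
    rw [differentiableAt_simFun_iff (by norm_num) one_ne_zero, hsim] at hd
    have hpd : ∀ i, pd i (simFun 0 (1 / 2) A 0 1 ut) ((2 : ℝ) • x) = fderiv ℝ ut x (ee i) := by
      intro i
      rw [pd, fderiv_simFun_apply (by norm_num) (by rwa [hsim]), hsim]
      simp [hA]
    rw [hpd] at h2 h0 h1'
    rw [h4] at h0 h1'
    refine ⟨hd, fun z => ?_⟩
    set p := fderiv ℝ ut x
    rw [linear_apply_eq p z]
    have e0 : z 0 * p (ee 0) ≤ hor z * (CG * (2 * √ε)) := by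
      refine (le_abs_self _).trans ?_
      rw [abs_mul]
      exact mul_le_mul (abs_zero_le_hor z) h0 (abs_nonneg _) (hor_nonneg z)
    have e1 : z 1 * p (ee 1) ≤ hor z * (CG * (2 * √ε)) := by
      refine (le_abs_self _).trans ?_
      rw [abs_mul]
      exact mul_le_mul (abs_one_le_hor z) h1' (abs_nonneg _) (hor_nonneg z)
    have e2 : z 2 * p (ee 2) - z 2 ≤ |z 2| * (CG * (4 * ε)) := by
      rw [show z 2 * p (ee 2) - z 2 = z 2 * (p (ee 2) - 1) by ring]
      refine (le_abs_self _).trans ?_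
      rw [abs_mul]
      exact mul_le_mul_of_nonneg_left h2 (abs_nonneg _)
    have e3 : 4 * CG * (ε * |z 2| + √ε * hor z) ≤
        max 1 (4 * CG) * (ε * |z 2| + √ε * hor z) :=
      mul_le_mul_of_nonneg_right (le_max_right _ _)
        (add_nonneg (mul_nonneg hε.le (abs_nonneg _)) (mul_nonneg hse (hor_nonneg z)))
    linarith
  obtain ⟨B, hB⟩ := lipschitzOn_of_isApprox hmd.toIsApprox (hboxS.trans hSU) (convex_box ε a)
  obtain ⟨θ, hθ, q, hq, hqd, hqsub, hqflat⟩ :=
    hcore U ut B ε hmd.isOpen hmd.harmonic hε hε₁' (hboxS.trans hSU) hB hnear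
  refine ⟨θ, hθ, q, hq, hqd, ?_⟩
  obtain ⟨c, hc⟩ := hqflat
  refine ⟨c, fun y hy => ?_⟩
  have h1 := hclose y (hboxS (hqsub hy))
  have h2 := hc y hy
  have h3 := abs_sub_le (u y) (ut y) (c + ⟪q, y⟫)
  rw [abs_sub_comm (u y) (ut y)] at h3
  have h6 : CM * ε ≤ θ / 4 := by
    rw [le_div_iff₀ (by positivity)] at hεθ
    linarith [hθ.1]
  have h7 : CM * ε ^ 2 ≤ ε * θ / 4 := by
    calc CM * ε ^ 2 = ε * (CM * ε) := by ring
      _ ≤ ε * (θ / 4) := mul_le_mul_of_nonneg_left h6 hε.le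
      _ = ε * θ / 4 := by ring
  linarith

end Vale.Agent.P080C1.Improve
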