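import Vale.Agent.P080C1.Improve.Box

/-!
Segments: the upper bound from the gradient, and exit segments from a point of large slope.
-/

noncomputable section

open MeasureTheory Filter Topology Set
open scoped RealInnerProductSpace NNReal

namespace Vale.Agent.P080C1.Improve

variable {g : E3 → ℝ} {D : Set E3} {B : ℝ≥0}

theorem segment_le (hg : LipschitzOnWith B g D) (hD : IsOpen D) (hconv : Convex ℝ D)
    {a v : E3} (ha : a ∈ D) (hav : a + v ∈ D) {c : ℝ}
    (hc : ∀ᵐ x ∂volume.restrict D, DifferentiableAt ℝ g x → fderiv ℝ g x v ≤ c) :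
    g (a + v) - g a ≤ c := by
  obtain ⟨G, hG, hGeq⟩ := hg.extend_real
  rw [hGeq hav, hGeq ha]
  refine P084.Fin.sub_le_of_ae_fderiv_le volume hG hD hconv (subset_closure ha)
    (subset_closure hav) ⟨a, ha⟩ ?_
  filter_upwards [(ae_restrict_iff' hD.measurableSet).1 hc,
    (hG.ae_differentiableAt : ∀ᵐ x, DifferentiableAt ℝ G x)] with x hx hd hxD
  have e : G =ᶠ[𝓝 x] g := by
    filter_upwards [hD.mem_nhds hxD] with z hz
    exact (hGeq hz).symm
  rw [e.fderiv_eq]
  exact hx hxD (hd.congr_of_eventuallyEq e.symm)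

theorem segment_le_norm (hg : LipschitzOnWith B g D) (hD : IsOpen D) (hconv : Convex ℝ D)
    {a b : E3} (ha : a ∈ D) (hb : b ∈ D) {m : ℝ}
    (hc : ∀ᵐ x ∂volume.restrict D, DifferentiableAt ℝ g x → ‖fderiv ℝ g x‖ ≤ m) :
    g b - g a ≤ m * ‖b - a‖ := by
  have h := segment_le hg hD hconv (v := b - a) (c := m * ‖b - a‖) ha
    (by rwa [add_sub_cancel]) ?_
  · rwa [add_sub_cancel] at h
  · filter_upwards [hc] with x hx hd
    exact (le_abs_self _).trans (((fderiv ℝ g x).le_opNorm _).trans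
      (mul_le_mul_of_nonneg_right (hx hd) (norm_nonneg _)))

/-- A pinched derivative pinches the increments. -/
theorem near_segment (hg : LipschitzOnWith B g D) (hD : IsOpen D) (hconv : Convex ℝ D)
    {C ε : ℝ} (hnear : ∀ᵐ x ∂volume.restrict D, DifferentiableAt ℝ g x ∧ Near C ε (fderiv ℝ g x))
    {a b : E3} (ha : a ∈ D) (hb : b ∈ D) :
    |g b - g a - (b - a) 2| ≤ C * (ε * |(b - a) 2| + √ε * hor (b - a)) := by
  have key : ∀ {p q : E3}, p ∈ D → q ∈ D →
      g q - g p ≤ (q - p) 2 + C * (ε * |(q - p) 2| + √ε * hor (q - p)) := by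
    intro p q hp hq
    have h := segment_le hg hD hconv (v := q - p)
      (c := (q - p) 2 + C * (ε * |(q - p) 2| + √ε * hor (q - p))) hp
      (by rwa [add_sub_cancel]) ?_
    · rwa [add_sub_cancel] at h
    · filter_upwards [hnear] with x hx _
      exact hx.2 _
  have h1 := key ha hb
  have h2 := key hb ha
  have e1 : (a - b) 2 = -((b - a) 2) := by simp [PiLp.sub_apply]
  have e2 : hor (a - b) = hor (b - a) := by rw [← hor_neg, neg_sub]
  rw [e1, e2, abs_neg] at h2
  rw [abs_le]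
  constructor <;> linarith

/-- The ratio between horizontal and vertical extent of the exit segments. -/
def tilt (C S₀ : ℝ) : ℝ := 4 * C + 8 * (S₀ + C) + 2

/-- A segment with slope nearly one is nearly vertical. -/
theorem vertical_of_slope {C S₀ ε a h n : ℝ} (hC : 0 ≤ C) (hS : 0 ≤ S₀) (hε : 0 < ε)
    (hsmall : √ε * (S₀ + 2 * C + 1) ≤ 1 / 2) (han : |a| ≤ n) (hh : 0 ≤ h) (hhn : h ≤ n)
    (hn : 0 < n) (hpy : h ^ 2 = n ^ 2 - a ^ 2)
    (hslope : (1 - ε * S₀) * n ≤ a + C * (ε * |a| + √ε * h)) :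
    0 < a ∧ n ≤ 2 * a ∧ h < √ε * tilt C S₀ * a := by
  have hse : 0 < √ε := Real.sqrt_pos.2 hε
  have hse1 : √ε ≤ 1 / 2 := by nlinarith
  have hsq : √ε * √ε = ε := Real.mul_self_sqrt hε.le
  have hle : ε ≤ √ε := by nlinarith
  have h1 : ε * S₀ * n + C * (ε * |a| + √ε * h) ≤ √ε * (S₀ + 2 * C + 1) * n := by
    have e1 : ε * S₀ * n ≤ √ε * S₀ * n :=
      mul_le_mul_of_nonneg_right (mul_le_mul_of_nonneg_right hle hS) hn.le
    have e2 : ε * |a| ≤ √ε * n := mul_le_mul hle han (abs_nonneg a) hse.le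
    have e3 : √ε * h ≤ √ε * n := mul_le_mul_of_nonneg_left hhn hse.le
    have e4 : C * (ε * |a| + √ε * h) ≤ C * (√ε * n + √ε * n) :=
      mul_le_mul_of_nonneg_left (add_le_add e2 e3) hC
    nlinarith [mul_nonneg hse.le hn.le]
  have h2 : n ≤ 2 * a := by nlinarith
  have ha : 0 < a := by linarith
  refine ⟨ha, h2, ?_⟩
  by_contra hcon
  push Not at hcon
  have han' : a ≤ n := (le_abs_self a).trans han
  rw [abs_of_pos ha] at hslope
  have h3 : n - a ≤ ε * S₀ * n + C * ε * a + C * √ε * h := by nlinarith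
  have h4 : h ^ 2 ≤ 4 * a * (ε * (2 * (S₀ + C)) * a + C * √ε * h) := by
    have e1 : n - a ≤ ε * (2 * (S₀ + C)) * a + C * √ε * h := by
      nlinarith [mul_le_mul_of_nonneg_left h2 (mul_nonneg hε.le hS), mul_nonneg (mul_nonneg hC hε.le) ha.le]
    calc h ^ 2 = (n + a) * (n - a) := by rw [hpy]; ring
      _ ≤ (4 * a) * (n - a) := mul_le_mul_of_nonneg_right (by linarith) (by linarith)
      _ ≤ _ := mul_le_mul_of_nonneg_left e1 (by linarith)
  -- write `h = √ε a x` with `x` at least the tilt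
  set x : ℝ := h / (√ε * a) with hxdef
  have hx : h = √ε * a * x := by rw [hxdef]; field_simp
  have hxK : tilt C S₀ ≤ x := by
    rw [hxdef, le_div_iff₀ (by positivity)]
    nlinarith
  have h5 : ε * a ^ 2 * x ^ 2 ≤ ε * a ^ 2 * (8 * (S₀ + C) + 4 * C * x) := by
    have e1 : h ^ 2 = ε * a ^ 2 * x ^ 2 := by rw [hx, mul_pow, mul_pow, sq √ε, hsq]
    have e2 : 4 * a * (ε * (2 * (S₀ + C)) * a + C * √ε * h) =
        ε * a ^ 2 * (8 * (S₀ + C) + 4 * C * x) := by
      rw [hx]; linear_combination 4 * a ^ 2 * C * x * hsq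
    linarith
  have h6 : x ^ 2 ≤ 8 * (S₀ + C) + 4 * C * x := le_of_mul_le_mul_left h5 (by positivity)
  have hxK' : 4 * C + 8 * (S₀ + C) + 2 ≤ x := hxK
  have h7 : x * (x - 4 * C) ≤ 8 * (S₀ + C) := by nlinarith
  have h8 : 1 * (x - 4 * C) ≤ x * (x - 4 * C) :=
    mul_le_mul_of_nonneg_right (by linarith) (by linarith)
  linarith

/-- From a point of slope `1 + ε s` a nearly vertical segment of at least the same slope reaches
height `H`; `σ` is `1` for increasing and `-1` for decreasing functions. -/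
theorem exit_segment (hCS : ConeSlopeProp) {O : Set E3} (hO : IsOpen O)
    (hh : IsInfHarmonicOn O g) {y : E3} (hy : DifferentiableAt ℝ g y) {C S₀ ε σ H s : ℝ}
    (hC : 0 ≤ C) (hS : 0 ≤ S₀) (hε : 0 < ε) (hsmall : √ε * (S₀ + 2 * C + 1) ≤ 1 / 2)
    (hσ : σ * σ = 1) (hH : 0 < H) (hs : -S₀ ≤ s) (hslope : 1 + ε * s ≤ ‖fderiv ℝ g y‖)
    (hDO : D ⊆ O)
    (hsub : ∀ z : E3, |(z - y) 2| ≤ H → hor (z - y) ≤ √ε * tilt C S₀ * H → z ∈ D)
    (hnear : ∀ z ∈ D, |g z - g y - σ * (z - y) 2| ≤ C * (ε * |(z - y) 2| + √ε * hor (z - y))) :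
    ∃ v : E3, y + v ∈ D ∧ σ * v 2 = H ∧ hor v ≤ √ε * tilt C S₀ * H ∧ H ≤ ‖v‖ ∧ ‖v‖ ≤ 2 * H ∧
      (1 + ε * s) * ‖v‖ ≤ g (y + v) - g y := by
  set K := tilt C S₀ with hK
  have hK0 : 0 < K := by rw [hK, tilt]; positivity
  set U : Set E3 := {z | |(z - y) 2| < H ∧ hor (z - y) < √ε * K * H} with hU
  set W : Set E3 := {z | |(z - y) 2| ≤ H ∧ hor (z - y) ≤ √ε * K * H} with hW
  have hUo : IsOpen U := (isOpen_lt (f := fun z : E3 => |(z - y) 2|) (by fun_prop) continuous_const).inter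
    (isOpen_lt (continuous_hor.comp (continuous_id.sub continuous_const)) continuous_const)
  have hWc : IsClosed W := (isClosed_le (f := fun z : E3 => |(z - y) 2|) (by fun_prop) continuous_const).inter
    (isClosed_le (continuous_hor.comp (continuous_id.sub continuous_const)) continuous_const)
  have hUW : U ⊆ W := fun z hz => ⟨hz.1.le, hz.2.le⟩
  have hclW : closure U ⊆ W := closure_minimal hUW hWc
  have hyU : y ∈ U := by
    refine ⟨?_, ?_⟩
    · simpa using hH
    · rw [sub_self, hor_zero]; positivity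
  have hUb : Bornology.IsBounded U := by
    refine (Metric.isBounded_closedBall (x := y) (r := H + √ε * K * H)).subset fun z hz => ?_
    rw [Metric.mem_closedBall, dist_eq_norm]
    linarith [norm_le_add (z - y), hz.1, hz.2]
  obtain ⟨z, hzf, hz⟩ := hCS O U g y hO hh hUo hUb
    (fun x hx => hDO (hsub x (hclW hx).1 (hclW hx).2)) hyU hy
  rw [hUo.frontier_eq] at hzf
  have hzW : z ∈ W := hclW hzf.1
  have hzD : z ∈ D := hsub z hzW.1 hzW.2
  set v : E3 := z - y with hv
  have hv0 : v ≠ 0 := by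
    intro h
    rw [hv, sub_eq_zero] at h
    exact hzf.2 (h ▸ hyU)
  have hn : 0 < ‖v‖ := norm_pos_iff.2 hv0
  have hzs : (1 + ε * s) * ‖v‖ ≤ g z - g y :=
    le_trans (mul_le_mul_of_nonneg_right hslope hn.le) hz
  have habs : |σ * v 2| = |v 2| := by
    rcases mul_self_eq_one_iff.1 hσ with h | h <;> simp [h]
  obtain ⟨ha, h2, hlt⟩ := vertical_of_slope hC hS hε hsmall (a := σ * v 2) (h := hor v) (n := ‖v‖)
    (habs ▸ abs_two_le_norm v) (hor_nonneg v) (hor_le_norm v) hn
    (by rw [hor_sq, mul_pow, sq σ, hσ, one_mul])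
    (by
      have h1 := (abs_le.1 (hnear z hzD)).2
      have h2 : (1 - ε * S₀) * ‖v‖ ≤ (1 + ε * s) * ‖v‖ := by
        refine mul_le_mul_of_nonneg_right ?_ hn.le
        nlinarith
      rw [habs]
      linarith)
  have haH : σ * v 2 = H := by
    refine le_antisymm (by rw [← abs_of_pos ha, habs]; exact hzW.1) ?_
    by_contra hcon
    push Not at hcon
    refine hzf.2 ⟨by rw [← habs, abs_of_pos ha]; exact hcon, hlt.trans_le ?_⟩
    exact mul_le_mul_of_nonneg_left hcon.le (by positivity)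
  refine ⟨v, by rwa [hv, add_sub_cancel], haH, hzW.2, ?_, by linarith, by rwa [hv, add_sub_cancel]⟩
  rw [← haH, ← abs_of_pos ha, habs]
  exact abs_two_le_norm v

end Vale.Agent.P080C1.Improve
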